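import Mathlib
import Vale.Agent.P371.Statement
import Vale.Agent.P371.Gamma.Defs
import Vale.Agent.P371.Gamma.Assembly
import Vale.Agent.P371.Gamma.Const
import Vale.Agent.P371.Gamma.Calib
import Vale.Agent.P371.Gamma.Solvent
import Vale.Agent.P371.Gamma.Shoot
import Vale.Agent.P371.Gamma.Trial
import Vale.Agent.P371.Gamma.Density
import Vale.Agent.P371.Gamma.Soliton

/-!
# P371: the sharp one-dimensional Lieb-Thirring constants for `1/2 < γ < 3/2`

For every exponent in the whole interval and every matrix size the best constant is the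
one-bound-state constant of Keller and of Lieb and Thirring.
-/

namespace Vale.Agent.Results.P371.SharpConstant

open Matrix MeasureTheory Vale.Agent.P371 Vale.Agent.P371.Gamma

theorem result (γ : ℝ) (h1 : 1 / 2 < γ) (h2 : γ < 3 / 2) (m : ℕ) (hm : 1 ≤ m) :
    IsGreatest
      {r : ℝ | ∃ (N : ℕ) (W : ℝ → Matrix (Fin m) (Fin m) ℂ)
          (u u' : Fin N → ℝ → EuclideanSpace ℂ (Fin m)),
        IsPotential (γ + 1 / 2) W ∧ 0 < ∫ x, trPow (γ + 1 / 2) W x ∧ IsFamily u u' ∧
        IsFormDiag W u u' ∧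
        r = (∑ i, max (negEnergy W (u i) (u' i)) 0 ^ γ) / ∫ x, trPow (γ + 1 / 2) W x}
      (2 * ((γ - 1 / 2) / (γ + 1 / 2)) ^ (γ - 1 / 2) *
        (Real.Gamma (γ + 1) / (2 * Real.sqrt Real.pi * Real.Gamma (γ + 3 / 2)))) ∧
    ∀ (N : ℕ) (W : ℝ → Matrix (Fin m) (Fin m) ℂ)
      (u u' : Fin N → ℝ → EuclideanSpace ℂ (Fin m)),
      IsPotential (γ + 1 / 2) W → IsFamily u u' →
      ∀ i j, Integrable fun x => inner ℂ (u i x) (WithLp.toLp 2 (W x *ᵥ (u j x).ofLp)) := by
  have hC : CalibStmt := calib_of solvent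
  refine ⟨sharp_of const hC shoot trial density soliton h1 h2 hm, fun N W u u' hW hu => ?_⟩
  exact (density γ h1 h2 m (trial hC shoot γ h1 h2 m) W hW).2 N u u' hu

end Vale.Agent.Results.P371.SharpConstant
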